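import Crest.Agent.X212.Nt66.Defs

/-!
# Row 212, RF-NT: the second layer of leaves (glue at job level)
-/

set_option autoImplicit false
set_option linter.unusedSectionVars false
noncomputable section
open scoped Manifold ContDiff Topology InnerProductSpace Real
open MeasureTheory Set Function Filter

namespace Crest.Agent.X212.Nt66
open An M Nd18 Mod61 Nk89 Cht98 Rf65 Pte3 Hol14
open An.Job (Sol isClopen_un)
open Prm93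

section res
variable {Wi : Type} {X : Mf 4} {A κ lam : Type} [Fintype A] [Fintype κ] [Fintype lam]
  [DecidableEq lam] {M : Mark X A κ} {W : World M} {N : ML M lam} {Λ : Lns W N}
  {A' h : Type} [Fintype A'] [DecidableEq A'] [Fintype h] {r n : ℕ}
  {J : Job Wi Λ A' h r n} {c : M.Cl} {σ : Cel A'} {p : Prt A A' h} {U : Type} [Fintype U] {δ : ℝ}
  {b : Bp J c} {E : EC b p U δ}

/-- the line through `x` in the direction `(α, φ)` -/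
def ln (x : Pnt E.o r) {α : (W.Z c).M → Fm (Option κ) E.o.m.A} {φ : (W.Z c).M → E.o.m.V}
    (hα : α ∈ Mod61.Hs (b.F p U δ).F0.toPre E.o.P1) (hφ : φ ∈ Mod61.Hs (b.F p U δ).F0.toPre E.o.Pp)
    (s : ℝ) : Pnt E.o r :=
  ⟨x.α + s • α, x.φ + s • φ, x.z, x.t, add_mem x.hα (Submodule.smul_mem _ _ hα),
    add_mem x.hφ (Submodule.smul_mem _ _ hφ), x.ht⟩

variable (J) in
/-- perturbations that only act on the row of the cut `l` at `s` -/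
def Cl (s : A' → ℝ) (l : h) (q : Wi →₀ ℝ) : Prop :=
  ∀ w ∈ q.support, J.co w s = 0 ∧ (∀ l' ≠ l, J.cc l' w s = 0) ∧ J.Nn w s

/-- the perturbation of a row -/
def sg (s : A' → ℝ) (l : h) (q : Wi →₀ ℝ) (x : Pnt E.o r) :
    CL ((J.cut c l).H (J.B c) E.o.m) ((J.cut c l).H (J.B c) E.o.m) := J.σc c q s l x.cfg

variable (E) in
/-- the elementary operator with the fibre endomorphism `ν` -/
def el (s : A' → ℝ) (l : h) (a b : ℕ) (w : ℂ) (ν : E.o.m.A) :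
    CL ((J.cut c l).H (J.B c) E.o.m) ((J.cut c l).H (J.B c) E.o.m) :=
  frk _ _ a b ((J.cut c l).pi (J.B c) (J.G c s).F E.o.m (J.cut c l).x0 * csE E.o.m.J w * opL ν *
    (J.cut c l).pi (J.B c) (J.G c s).F E.o.m (J.cut c l).x0)

end res

section scene
open G75 Ins26 Jb7
variable {κ lam : Type} [Fintype κ] [Fintype lam] [DecidableEq lam] {Lm : LM κ lam}
  {S : Scene Lm} {D : S.Dat} {i : S.L} {Wi : Type} {r n : ℕ}
  {J : Job Wi (D.Λ i) (S.A ⊕ Unit) S.ls r n} {c : S.M.Cl} {δ : ℝ} {X : Finset S.A}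
  {σ : Cel (S.A ⊕ Unit)} {Adm : (Wi →₀ ℝ) → Prop} {n₀ : ℤ} {q : Wi →₀ ℝ} {y : J.Obc c} {l : S.ls}
  {b : Bp J c} {E : EW J c X σ l b δ} {x : Pnt E.o r} {ψ : E.K}

variable (Lm) in
/-- **LEAF CX**: the situation -/
def CxStmt : Prop := AllG Lm fun S _ _ _ _ _ J X n₀ c δ Adm => ∀ σ, cylW c ⊆ S.ls →
  H1 J c δ (shX S X) σ Adm n₀ → LixAt J c δ Adm → Q4 J c δ Adm (shX S X) σ n₀ →
  ∀ q (y : J.Obc c) a, Adm q → Sol σ q y → FA J c σ n₀ y a → RegO J c δ (shX S X) σ q y a →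
  n₀ + Job.dim σ = 1 → ∃ k : a ∈ S.ls, ∀ b (E : EW J c X σ ⟨a, k⟩ b δ) x ψ,
    E.Gd σ (muF J c {hp a true, hp a false}) q y x ψ → Cx X σ Adm n₀ q y ⟨a, k⟩ E x ψ

variable (C : Cx X σ Adm n₀ q y l E x ψ)

/-- the index of the cut -/
abbrev Cx.il : (pW J c (shX S X) σ l.1).H := ⟨l, C.mem⟩

/-- the body of `Abx` (`Abx C ↔ ∃ ξ, AbAt C ξ` by `Iff.rfl`) -/
def AbAt (_ : Cx X σ Adm n₀ q y l E x ψ) (ξ : (D.W.Z c).M → E.o.m.A) : Prop :=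
  Qab60.Ab (J.B c) (J.G c y.s) (Om D c l) x.cfg ξ ∧
  Lns95.Sl (J.B c) (J.G c y.s) (Om D c l) (Abel74.fm (J.G c y.s).F E.o.m x.cfg.W ξ) ∧
  |flux (D.W.Z c).I (J.cut c l) (Abel74.fm (J.G c y.s).F E.o.m x.cfg.W ξ)| = 2 * π ∧
  ∀ a a', (J.cut c l).Sol (J.B c) (J.G c y.s).F (J.σc c q y.s l) x.cfg a →
    (J.cut c l).Sol (J.B c) (J.G c y.s).F (J.σc c q y.s l) x.cfg a' →
    ∃ η : Circle, a' = cH E.o.m (J.B c) (J.cut c l) (csE E.o.m.J η) a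

theorem abx_iff : Abx C ↔ ∃ ξ, AbAt C ξ := Iff.rfl

/-- SOL: perturbations of the row that kill the field keep the solution -/
def Sop : Prop := ∀ p, Cl J y.s l p → sg y.s l p x (ψ C.il) = 0 → Sol σ (q + p) y

/-- RWJ: `RowStmt` at the cut `l` -/
def Rwj : Prop := ∀ ξ, AbAt C ξ → ∃ pr : (J.cut c l).H (J.B c) E.o.m →ₗ[ℝ] Fin 2 → ℝ,
  (∀ v, pr v = 0 → ∃ η, ⟪ψ C.il, η⟫_ℝ = 0 ∧ E.row q x C.il η = v) ∧
  ∀ χ ≠ 0, ∀ ν ∈ E.o.m.gS (J.cut c l).x0, (∀ u : ℝ, ν ≠ u • ξ (J.cut c l).x0) →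
    ∃ a b w, χ ⬝ᵥ pr (el E y.s l a b w ν (ψ C.il)) ≠ 0

/-- RCH: `ForStmt` and `RichC` -/
def Rcj : Prop := ∀ ξ, AbAt C ξ → ∀ α (hα : α ∈ Mod61.Hs _ E.o.P1), (∀ z ∉ Om D c l, α z = 0) →
  NG (J.G c y.s).F x.cfg (Om D c l) ξ (fun z =>
    idx ((b.F (pW J c (shX S X) σ l.1) (UW J c l) δ).S x.t z) (.id ℝ _) (α z)) →
  ∃ ν ∈ E.o.m.gS (J.cut c l).x0, (∀ u : ℝ, ν ≠ u • ξ (J.cut c l).x0) ∧ ∀ a b w, ∃ p,
    Cl J y.s l p ∧ sg y.s l p x = 0 ∧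
    HasDerivAt (fun s => sg y.s l p (ln x hα (zero_mem _) s)) (el E y.s l a b w ν) 0

/-- the rows of `e` other than the row of `l` : `(eD, eC, 0, 0)`, no other cut -/
structure Rw (e : E.Y) (eD : (D.W.Z c).M → E.o.m.V)
    (eC : (D.W.Z c).M → Fm (Option κ × Option κ) E.o.m.A) : Prop where
  vD : (b.F _ _ δ).F0.val 8 E.o.Pm e.1.1 = eD
  vC : (b.F _ _ δ).F0.val 8 E.o.P2 e.1.2.1 = eC
  vS : e.1.2.2 = 0
  vT : ∀ j : (pW J c (shX S X) σ l.1).H, j.1 ≠ l → e.2.1 j = 0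
  vN : e.2.2 = 0

/-- LA: variations of the connection inside -/
def LocA : Prop := ∀ f, E.Map q f → ∀ g, RepF (e0 b X σ l δ _) g → ∀ α' α,
  (b.F _ _ δ).F0.val 9 E.o.P1 α = (b.F _ _ δ).F0.val 9 _ α' →
  Rw (fderiv ℝ f (x.pt 8, ψ) ((α, 0, 0), 0)) 0 ((b.F _ _ δ).F0.val 8 _ (C.L0 g (α', 0, 0)).2.1)

/-- LF: variations of the spinor inside -/
def LocF : Prop := ∀ f, E.Map q f → ∀ g, RepF (e0 b X σ l δ _) g → ∀ φ' φ,
  (b.F _ _ δ).F0.val 9 E.o.Pp φ = (b.F _ _ δ).F0.val 9 _ φ' →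
  Rw (fderiv ℝ f (x.pt 8, ψ) ((0, φ, 0), 0)) ((b.F _ _ δ).F0.val 8 _ (C.L0 g (0, φ', 0)).1) 0

end scene
end Crest.Agent.X212.Nt66
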