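import Crest.Agent.X212.Rf65.Pl
import Crest.Agent.X212.Pte3.Sol
import Crest.Agent.X212.Lns95.Lf

/-!
# Row 212, RF-NT: the leaves of `Rf65.NtStmt`
-/

set_option autoImplicit false
set_option linter.unusedSectionVars false
noncomputable section
open scoped Manifold ContDiff Topology InnerProductSpace Real
open MeasureTheory Set Function Filter

namespace Crest.Agent.X212.Nt66
open An M Nd18 Mod61 Nk89 Cht98 Rf65 Pte3 Hol14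
open An.Job (Sol isClopen_un)
open Wz78 (nab SA)
open Eqv71 (idx_apply)
open Prm93

/-- **LEAF NT0** -/
def Nt0Stmt : Prop := ∀ (X Y H P : Type) [NormedAddCommGroup X] [NormedSpace ℝ X] [CompleteSpace X]
  [NormedAddCommGroup Y] [NormedSpace ℝ Y] [CompleteSpace Y] [NormedAddCommGroup H]
  [NormedSpace ℝ H] [CompleteSpace H] [AddCommGroup P] [Module ℝ P] (L : X →L[ℝ] Y) (ι : H →L[ℝ] Y)
  (D : P →ₗ[ℝ] X →L[ℝ] Y) (pr : H →ₗ[ℝ] Fin 2 → ℝ) (k : (Fin 2 → ℝ) →ₗ[ℝ] X)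
  (A : (Fin 2 → ℝ) →ₗ[ℝ] H) (B : P →ₗ[ℝ] (Fin 2 → ℝ) →ₗ[ℝ] H), Surjective (L.coprod ι) →
  (∀ v, pr v = 0 → ∃ z, L z = ι v ∧ ∀ p, D p z = 0) → (∀ a, L (k a) = ι (A a)) →
  (∀ p a, D p (k a) = ι (B p a)) → (∀ a ≠ 0, ∀ χ ≠ 0, ∃ p, χ ⬝ᵥ pr (B p a) ≠ 0) →
  ∃ p, ∀ᶠ ε in 𝓝[≠] (0 : ℝ), Surjective (L + ε • D p : X →L[ℝ] Y)

section gauge
variable {E : Type} [NormedAddCommGroup E] [NormedSpace ℝ E] [FiniteDimensional ℝ E]
  [MeasurableSpace E] [BorelSpace E]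
  {HM : Type} [TopologicalSpace HM] (I : ModelWithCorners ℝ E HM) [I.Boundaryless]
  (M : Type) [TopologicalSpace M] [ChartedSpace HM M] [IsManifold I ∞ M] [T2Space M]
  [MeasurableSpace M] [BorelSpace M] [SecondCountableTopology M]
  (ι : Type) [Fintype ι] (lam : Type) [Fintype lam]

variable {I M ι lam} in
/-- the parallel section `ξ` does not deform along `a` -/
def NG {r : ℕ} (F : Fr I M ι) (c : Cfg M ι lam r) (Ω : Set M) (ξ : M → c.m.A)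
    (a : M → Fm ι c.m.A) : Prop :=
  ¬∃ η : M → c.m.A, ∀ x ∈ Ω, SA I η x ∧ η x ∈ c.m.gS x ∧ ⟪η x, ξ x⟫_ℝ = 0 ∧
    ∀ i, nab I F.e (c.m.adW c.W) i η x + adc (opL (a x i)) (ξ x) = 0

/-- **LEAF FOR**: first order richness of the words at an abelian connection -/
def ForStmt : Prop := ∀ (r : ℕ) (B : Base M ι lam) (G : Geo I M ι lam) (Ω : Set M)
  (c : Cfg M ι lam r) (ξ : M → c.m.A) (a : M → Fm ι c.m.A) (x₀ : M), B.OK I → G.OK B →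
  (∃ C, G.F.Tame C) → IsClopen Ω → IsPreconnected Ω → Qab60.Ab B G Ω c ξ →
  (∀ i, G.F.Cb (c.W i)) → G.F.Cb c.Φ → (∃ x ∈ Ω, c.m.Fg G.F c.W x ≠ 0) → G.F.Cb a →
  (∀ x, c.m.p1 B x (a x) = a x) → (∀ x ∉ Ω, a x = 0) → NG G.F c Ω ξ a → x₀ ∈ Ω →
  ∃ (N : ℕ) (w : Fin N → AW M) (t : Fin N → ℝ) (n : c.m.A), (∀ j, Wrd81.AwIn I Ω (w j)) ∧
    ∑ j, t j • c.aw G.F (w j) x₀ = 0 ∧
    HasDerivAt (F := c.m.A) (fun s : ℝ => ∑ j, t j • (vr c (s • a) 0).aw G.F (w j) x₀) n 0 ∧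
    n ∈ c.m.gS x₀ ∧ ∀ u : ℝ, n ≠ u • ξ x₀

/-- **LEAF ROW**: the cokernel of the row of a cut at a reduction of flux `± 2π` -/
def RowStmt : Prop := ∀ (B : Base M ι lam) (G : Geo I M ι lam) (m : Md M ι lam) (W : m.Cn)
  (k : Cut M lam) (ξ : M → m.A) (σ : CL (k.H B m) (k.H B m)) (ψ : k.H B m), B.OK I → G.OK B →
  m.OK I B → m.IsConn B G W → k.OK B G.F → Abel74.RedOn G.F m W k.supp ξ →
  |flux I k (Abel74.fm G.F m W ξ)| = 2 * π → IsCompactOperator σ →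
  Commute σ (JH m.J (m.pp B k.x0)) → Commute σ (cH m B k (ph B k G.F (ξ k.x0))) →
  Commute σ (cH m B k (ph B k G.F (-ξ k.x0))) → ‖ψ‖ = 1 → k.T B G.F m W ψ = σ ψ →
  (∀ ψ', ‖ψ'‖ = 1 → k.T B G.F m W ψ' = σ ψ' → ∃ η : Circle, ψ' = cH m B k (csE m.J η) ψ) →
  ∃ pr : k.H B m →ₗ[ℝ] Fin 2 → ℝ,
    (∀ v, pr v = 0 → ∃ η, ⟪ψ, η⟫_ℝ = 0 ∧ (k.T B G.F m W - σ) η = v) ∧
    ∀ χ ≠ 0, ∀ n ∈ m.gS k.x0, (∀ u : ℝ, n ≠ u • ξ k.x0) → ∃ (a b : ℕ) (w : ℂ), χ ⬝ᵥ pr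
      (frk _ _ a b (k.pi B G.F m k.x0 * csE m.J w * opL n * k.pi B G.F m k.x0) ψ) ≠ 0

/-- **LEAF TRF**: transfer between two charts over the clopen set `𝔊.Om` -/
def TrfStmt : Prop := ∀ (T T' : Type) [NormedAddCommGroup T] [NormedSpace ℝ T]
  [NormedAddCommGroup T'] [NormedSpace ℝ T'] [FiniteDimensional ℝ T'] (𝔉 : Fam I M ι lam T)
  (𝔊 : Fam I M ι lam T') (o : Ref 𝔉) (o' : Ref 𝔊) (r k : ℕ) (y : Pnt o r) (y' : Pnt o' r)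
  (l : T' →L[ℝ] T) (g : M → CL o'.m.V o.m.V) (ζ : Circle) (N : Set T'), 4 ≤ k → 𝔉.OK → 𝔊.OK →
  𝔊.B = 𝔉.B → Cmp 𝔉.F0.toPre 𝔊.F0.toPre → 𝔊.Om ⊆ 𝔉.Om → 𝔊.Om' = 𝔊.Om ∩ 𝔉.Om' → o.Φ0 = 0 →
  o'.Φ0 = 0 → y'.t ∈ N → (∀ t ∈ N, y.t + l (t - y'.t) ∈ 𝔉.Q ∧
    Agr (𝔊.G t) (𝔉.G (y.t + l (t - y'.t))) 𝔊.Om) →
  Mod61.EqOn 𝔉.B (𝔊.G y'.t).F 𝔊.Om y'.cfg y.cfg g ζ →
  (∀ τ, o.b τ ∈ Mod61.Hs 𝔉.F0.toPre o.P1) → (∀ τ, o'.b τ ∈ Mod61.Hs 𝔊.F0.toPre o'.P1) →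
  ∃ (Φ : o'.C r k →L[ℝ] o.C r k) (ΨD : 𝔊.F0.H k o'.Pm →L[ℝ] 𝔉.F0.H k o.Pm)
    (ΨC : 𝔊.F0.H k o'.P2 →L[ℝ] 𝔉.F0.H k o.P2),
    (∀ e, ∀ x ∈ 𝔊.Om, 𝔉.F0.val _ _ (ΨD e) x = cs o.m.J ζ (g x (𝔊.F0.val _ _ e x))) ∧
    (∀ e, ∀ x ∈ 𝔊.Om, ∀ s, 𝔉.F0.val _ _ (ΨC e) x s = Eqv71.cj (g x) (𝔊.F0.val _ _ e x s)) ∧
    (∀ e, ∃ e', ∀ x ∈ 𝔊.Om, 𝔉.F0.val _ _ (ΨD e') x = 𝔉.F0.val k o.Pm e x) ∧
    (∀ e, ∃ e', ∀ x ∈ 𝔊.Om, 𝔉.F0.val _ _ (ΨC e') x = 𝔉.F0.val k o.P2 e x) ∧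
    ∀ z : Pnt o' r, z.t ∈ N → ∃ w : Pnt o r, w.pt k = y.pt k + Φ (z.pt k - y'.pt k) ∧
      w.t = y.t + l (z.t - y'.t) ∧ Mod61.EqOn 𝔉.B (𝔊.G z.t).F 𝔊.Om z.cfg w.cfg g ζ

end gauge

/-! ### restricted charts -/

section res
variable {Wi : Type} {X : Mf 4} {A κ lam : Type} [Fintype A] [Fintype κ] [Fintype lam]
  [DecidableEq lam] {M : Mark X A κ} {W : World M} {N : ML M lam} {Λ : Lns W N}
  {A' h : Type} [Fintype A'] [DecidableEq A'] [Fintype h] {r n : ℕ}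
  {J : Job Wi Λ A' h r n} {c : M.Cl} {σ : Cel A'} {p : Prt A A' h} {U : Type} [Fintype U] {δ : ℝ}
  {b : Bp J c} (E : EC b p U δ)

/-- the sub-part with the same coordinates -/
abbrev sp (p : Prt A A' h) (P P' : Set (Reg A)) (H : Set h) : Prt A A' h := ⟨P, P', p.V, H⟩

/-- the reference frozen at `t` over the pieces `P ⊇ P'` -/
@[reducible] def rf (t : Tq p U) (P P' : Set (Reg A)) (H : Set h) : Ref (b.F (sp p P P' H) U δ) where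
  m := E.o.m
  A0 := E.o.A t
  Φ0 := 0
  ok := E.o.ok
  conn := E.o.connA (Λ.B_ok _ _) t
  cp := E.o.cp
  cρ := E.o.cρ
  cj := E.o.cj
  cA := E.o.cAt t
  cΦ := Sob92.Cb_const 0
  pos := fun _ => map_zero _

instance (t : Tq p U) (P P' : Set (Reg A)) (H : Set h) : (rf E t P P' H).B0 := ⟨rfl⟩

/-- the restricted chart (no moving ends) -/
@[reducible] def res (t : Tq p U) (P P' : Set (Reg A)) (H : Set h) : EC b (sp p P P' H) U δ where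
  o := rf E t P P' H
  R := E.R
  β i := (en E i).sl E.o (E.R + 1) t
  η _ := 0
  μ _ := none
  v i z := E.o.m.p ((en E i).pt (E.R + 1) z.1)

variable {E}

theorem hs_ind (H : CS σ E) {V : Type} [NormedAddCommGroup V] [InnerProductSpace ℝ V]
    [FiniteDimensional ℝ V] {O : Set (W.Z c).M} (hO : IsClopen O) {P Q : (W.Z c).M → CL V V}
    {u : (W.Z c).M → V} (hu : u ∈ Mod61.Hs (b.F p U δ).F0.toPre P) (e : ∀ z ∈ O, Q z = P z) :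
    O.indicator u ∈ Mod61.Hs (b.F p U δ).F0.toPre Q := by
  have := FiniteDimensional.complete ℝ V
  have k := Hs_mul H.F.sup (q := Q) (Grp76.Cb_ind hO (Sob92.Cb_const (ContinuousLinearMap.id ℝ V)))
    (fun z v hv => by by_cases hz : z ∈ O <;> simp [hz, e, hv]) hu
  convert k using 1
  funext z
  by_cases hz : z ∈ O <;> simp [hz]

/-- the restricted point -/
def rx (H : CS σ E) (x : Pnt E.o r) {P P' : Set (Reg A)} (h1 : P ⊆ p.P) (h2 : P' ⊆ p.P')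
    (K : Set h) : Pnt (rf E x.t P P' K) r where
  α := (W.un c P).indicator x.α
  φ := (W.un c P').indicator x.φ
  z := x.z
  t := x.t
  hα := hs_ind H (isClopen_un fun ρ k => H.pok.pc ρ (h1 k)) x.hα fun _ hz =>
    congrArg (idx _) ((indicator_of_mem hz _).trans
      (indicator_of_mem (biUnion_subset_biUnion_left h1 hz) _).symm)
  hφ := hs_ind H (isClopen_un fun ρ k => H.pok.pc ρ (H.pok.sub (h2 k))) x.hφ fun _ hz =>
    (indicator_of_mem hz _).trans (indicator_of_mem (biUnion_subset_biUnion_left h2 hz) _).symm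
  ht := x.ht

/-- the rows outside `Ω` and outside the cut `l` vanish -/
structure Inn (l : h) (Ω : Set (W.Z c).M) (e : E.Y) : Prop where
  D : ∀ z ∉ Ω, (b.F p U δ).F0.val 8 E.o.Pm e.1.1 z = 0
  C : ∀ z ∉ Ω, (b.F p U δ).F0.val 8 E.o.P2 e.1.2.1 z = 0
  S : e.1.2.2 = 0
  T : ∀ i : p.H, i.1 ≠ l → e.2.1 i = 0 ∧ e.2.2 i = 0

variable (J c) in
/-- **LEAF CMP**: the Sobolev frames of two charts are comparable; fixed limits do not move -/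
def CmpStmt : Prop := J.OK → ∀ δ, (∀ (b b' : Bp J c) p p' (U U' : Type) [Fintype U] [Fintype U'],
    Cmp (b.F p U δ).F0.toPre (b'.F p' U' δ).F0.toPre) ∧
  ∀ σ p (U : Type) [Fintype U] [IsEmpty U] (b : Bp J c) (E : EC b p U δ), CS σ E →
    ∀ τ, E.o.b τ ∈ Mod61.Hs (b.F p U δ).F0.toPre E.o.P1

end res

/-! ### lens faces -/

section scene
open G75 Ins26 Jb7
variable {κ lam : Type} [Fintype κ] [Fintype lam] [DecidableEq lam] {Lm : LM κ lam}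
  {S : Scene Lm} {D : S.Dat} {i : S.L} {Wi : Type} {r n : ℕ}
  {J : Job Wi (D.Λ i) (S.A ⊕ Unit) S.ls r n} {c : S.M.Cl} {δ : ℝ} (X : Finset S.A)
  (σ : Cel (S.A ⊕ Unit)) (Adm : (Wi →₀ ℝ) → Prop) (n₀ : ℤ) (q : Wi →₀ ℝ) (y : J.Obc c) (l : S.ls)

variable (J c) in
/-- the names of the moving ends (none at lens faces) -/
abbrev UW : Type := UU {hp l.1 true, hp l.1 false} (zw J c) (cylW c)

variable (J c) in
/-- the charts of the whole face -/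
abbrev EW (b : Bp J c) (δ : ℝ) : Type := EC b (pW J c (shX S X) σ l.1) (UW J c l) δ

/-- the situation of NT at a lens face -/
structure Cx {b : Bp J c} (E : EW J c X σ l b δ) (x : Pnt E.o r) (ψ : E.K) : Prop where
  gx : ∃ a₀ j T, GX J X a₀ j n₀ T ∧ ∀ a ∈ a₀, a ∉ c.1
  ls : cylW c ⊆ S.ls
  h1 : H1 J c δ (shX S X) σ Adm n₀
  lix : LixAt J c δ Adm
  q4 : Q4 J c δ Adm (shX S X) σ n₀
  adm : Adm q
  sol : Sol σ q y
  fa : FA J c σ n₀ y l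
  reg : RegO J c δ (shX S X) σ q y l
  dim : n₀ + Job.dim σ = 1
  gd : E.Gd σ (muF J c {hp l.1 true, hp l.1 false}) q y x ψ
  cs : CS σ E
  θ : b.θ _ _ x.t = y.s
  emp : IsEmpty (UW J c l)
  mem : l ∈ (pW J c (shX S X) σ l.1).H

variable {X σ Adm n₀ q y l} {b : Bp J c} {E : EW J c X σ l b δ} {x : Pnt E.o r} {ψ : E.K}

/-- the inside -/
abbrev Om (D : S.Dat) (c : S.M.Cl) (l : S.ls) : Set (D.W.Z c).M := D.W.un c {hp l.1 false}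

theorem sub_in : {hp l.1 false} ⊆ ({hp l.1 true, hp l.1 false} : Set (Reg S.A)) :=
  fun _ k => .inr k

/-- the point inside, with spinors over `P'` -/
abbrev Cx.xi (C : Cx X σ Adm n₀ q y l E x ψ) {P' : Set (Reg S.A)} (k : P' ⊆ {hp l.1 false}) :
    Pnt (rf E x.t {hp l.1 false} P' ∅) r := rx C.cs x sub_in (k.trans sub_in) ∅

/-- the linearised unperturbed equations inside -/
abbrev Cx.L0 (C : Cx X σ Adm n₀ q y l E x ψ)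
    (g : (rf E x.t {hp l.1 false} {hp l.1 false} ∅).C r 8 →
      (rf E x.t {hp l.1 false} {hp l.1 false} ∅).Y n (min r 1) 8) :=
  fderiv ℝ g ((C.xi Subset.rfl).pt 8)

/-- the unperturbed equations inside -/
abbrev e0 (b : Bp J c) (X : Finset S.A) (σ : Cel (S.A ⊕ Unit)) (l : S.ls) (δ : ℝ)
    (P' : Set (Reg S.A)) :=
  (b.F (sp (pW J c (shX S X) σ l.1) {hp l.1 false} P' ∅) (UW J c l) δ).eq0 r n (min r 1)

variable (Lm) in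
/-- a property of all situations -/
def NfStmt (P : ∀ {S : Scene Lm} {D : S.Dat} {i Wi r n} {J : Job Wi (D.Λ i) (S.A ⊕ Unit) S.ls r n}
    {c : S.M.Cl} {δ : ℝ} {X σ Adm n₀ q} {y : J.Obc c} {l b} {E : EW J c X σ l b δ} {x ψ},
    Cx X σ Adm n₀ q y l E x ψ → Prop) : Prop :=
  AllG Lm fun _ _ _ _ _ _ J X n₀ c δ Adm => ∀ σ q (y : J.Obc c) l b (E : EW J c X σ l b δ) x ψ
    (C : Cx X σ Adm n₀ q y l E x ψ), P C

variable (C : Cx X σ Adm n₀ q y l E x ψ)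

/-- NUM: the indices inside -/
def Num (_ : Cx X σ Adm n₀ q y l E x ψ) : Prop := dz (J.xs l).D (y.β l false) = 1 ∧
  ia δ y (hp l.1 false) + idr δ y (hp l.1 false) = 2 ∧ 0 ≤ idr δ y (hp l.1 false)

/-- IDX: the restricted charts and their indices -/
def Idx2 : Prop := (res E x.t {hp l.1 false} ∅ ∅).OK ∧
  Idx 8 (e0 b X σ l δ ∅) (C.xi (empty_subset _)) (ia δ y (hp l.1 false)) ∧
  Idx 8 (e0 b X σ l δ _) (C.xi Subset.rfl) (ia δ y (hp l.1 false) + idr δ y (hp l.1 false))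

/-- ABX: the point is abelian inside, of flux `± 2π`, and the row of the cut has one solution -/
def Abx (_ : Cx X σ Adm n₀ q y l E x ψ) : Prop := ∃ ξ,
  Qab60.Ab (J.B c) (J.G c y.s) (Om D c l) x.cfg ξ ∧
  Lns95.Sl (J.B c) (J.G c y.s) (Om D c l) (Abel74.fm (J.G c y.s).F E.o.m x.cfg.W ξ) ∧
  |flux (D.W.Z c).I (J.cut c l) (Abel74.fm (J.G c y.s).F E.o.m x.cfg.W ξ)| = 2 * π ∧
  ∀ a a', (J.cut c l).Sol (J.B c) (J.G c y.s).F (J.σc c q y.s l) x.cfg a →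
    (J.cut c l).Sol (J.B c) (J.G c y.s).F (J.σc c q y.s l) x.cfg a' →
    ∃ η : Circle, a' = cH E.o.m (J.B c) (J.cut c l) (csE E.o.m.J η) a

/-- DIR: the Dirac operator inside is onto -/
def Dir : Prop := Idx2 C → (idr δ y (hp l.1 false) ≤ 0) ∧ (0 ≤ idr δ y (hp l.1 false) →
  ∀ g, RepF (e0 b X σ l δ _) g → ∀ e, ∃ φ, (C.L0 g (0, φ, 0)).1 = e)

/-- COK: the curvature equation inside is regular -/
def Cki : Prop := Idx2 C → ∀ g, RepF (e0 b X σ l δ _) g → ∀ e, ∃ α, (C.L0 g (α, 0, 0)).2.1 = e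

/-- KER: two deformations inside that break the reduction -/
def Ker : Prop := Idx2 C → 2 ≤ ia δ y (hp l.1 false) → dz (J.xs l).D (y.β l false) = 1 → ∀ ξ,
  Qab60.Ab (J.B c) (J.G c y.s) (Om D c l) x.cfg ξ → ∀ g, RepF (e0 b X σ l δ _) g →
  ∃ a : (Fin 2 → ℝ) →ₗ[ℝ] (D.W.Z c).M → Fm (Option κ) E.o.m.A, ∀ s,
    a s ∈ Mod61.Hs (b.F (pW J c (shX S X) σ l.1) (UW J c l) δ).F0.toPre
      (rf E x.t {hp l.1 false} {hp l.1 false} ∅).P1 ∧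
    (C.L0 g (ofV _ 9 _ (a s), 0, 0)).2.1 = 0 ∧ (s ≠ 0 → NG (J.G c y.s).F x.cfg (Om D c l) ξ
      fun z => idx ((b.F (pW J c (shX S X) σ l.1) (UW J c l) δ).S x.t z) (.id ℝ _) (a s z))

/-- OUT: the rows outside are onto -/
def Out (_ : Cx X σ Adm n₀ q y l E x ψ) : Prop := ∀ f, E.Map q f → ∀ e : E.Y,
  ∃ v, Inn l (Om D c l) (fderiv ℝ f (x.pt 8, ψ) v - e)

end scene
end Crest.Agent.X212.Nt66
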