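import Crest.Agent.X212.Nt66.Lv

/-!
# Row 212, RF-NT: lines through smooth points, extension and restriction of Sobolev fields
-/

set_option autoImplicit false
set_option linter.unusedSectionVars false
noncomputable section
open scoped Manifold ContDiff Topology InnerProductSpace
open MeasureTheory Set Function Filter

namespace Crest.Agent.X212.Nt66
open An M Nd18 Mod61 Nk89 Cht98 Rf65 Pte3 Prm93 Sob92

section calc0
variable {Y : Type} [NormedAddCommGroup Y] [NormedSpace ℝ Y] {f g : ℝ → Y} {a : Y}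

theorem der_const (h : HasDerivAt f a 0) (e : ∀ s, f s = f 0) : a = 0 :=
  h.unique ((funext e : f = fun _ => f 0) ▸ hasDerivAt_const 0 (f 0))

theorem der_even (h : HasDerivAt f a 0) (e : ∀ s, f (-s) = f s) : a = 0 := by
  have k := (show HasDerivAt f a (-0) by rwa [neg_zero]).scomp (0 : ℝ) (hasDerivAt_neg 0)
  rw [show f ∘ Neg.neg = f from funext e] at k
  have := h.unique k
  rw [neg_smul, one_smul, eq_neg_iff_add_eq_zero, ← two_smul ℝ] at this
  simpa using this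

theorem der_eq {b : Y} (h : HasDerivAt f a 0) (k : HasDerivAt g b 0) (e : ∀ s, f s - f 0 = g s - g 0) :
    a = b := (h.sub_const (f 0)).unique ((funext e : (fun s => f s - f 0) = _) ▸ k.sub_const (g 0))

theorem der_line {X : Type} [NormedAddCommGroup X] [NormedSpace ℝ X] {F : X → Y} {O : Set X}
    (hO : IsOpen O) (hf : ContDiffOn ℝ ∞ F O) {x : X} (hx : x ∈ O) (v : X) :
    HasDerivAt (fun s : ℝ => F (x + s • v)) (fderiv ℝ F x v) 0 :=
  ((hf.contDiffAt (hO.mem_nhds hx)).differentiableAt (by simp)).hasFDerivAt.hasLineDerivAt v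

end calc0

section hs
variable {Z : Mf 4} {ι V : Type} [Fintype ι] [NormedAddCommGroup V] [InnerProductSpace ℝ V]
  [CompleteSpace V] {F : Fr Z.I Z.M ι} {S : ℝ} (hS : Sup F.toPre S) {k : ℕ} (hk : 4 ≤ k)
  {P Q : Z.M → CL V V} {O : Set Z.M}

variable (F k P Q) in
/-- extension by zero -/
def ex : F.H k P →L[ℝ] F.H k Q := F.mulH k P Q fun _ => .id ℝ V

include hS hk

theorem val_ex (e : ∀ z v, P z v = v → Q z v = v) (h : F.H k P) :
    F.val k Q (ex F k P Q h) = F.val k P h :=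
  funext (val_mulH hS hk (f := fun _ => .id ℝ V) (Cb_const _) e h)

/-- restriction -/
theorem exists_rs (hO : IsClopen O) (e : ∀ z ∈ O, P z = Q z) (h : F.H k Q)
    (h0 : ∀ z ∉ O, F.val k Q h z = 0) : ∃ h' : F.H k P, F.val k P h' = F.val k Q h :=
  ⟨_, funext fun z => (val_mulH hS hk (Grp76.Cb_ind hO (Cb_const (ContinuousLinearMap.id ℝ V)))
    (fun z v hv => by by_cases hz : z ∈ O <;> simp [hz, e, hv]) h z).trans (by
      by_cases hz : z ∈ O <;> simp [hz, h0])⟩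

/-- operators are determined by the smooth fields -/
theorem ext_hs {Y : Type} [NormedAddCommGroup Y] [NormedSpace ℝ Y] {A B : F.H k P →L[ℝ] Y}
    (e : ∀ u ∈ Mod61.Hs F.toPre P, A (ofV F.toPre k P u) = B (ofV F.toPre k P u)) : A = B :=
  DFunLike.ext' (Continuous.ext_on (dense_ofV hS hk) A.continuous B.continuous
    fun _ ⟨u, hu, k⟩ => k ▸ e u hu)

theorem ex_ofV (e : ∀ z v, P z v = v → Q z v = v) {u : Z.M → V} (hu : u ∈ Mod61.Hs F.toPre P) :
    ex F k P Q (ofV F.toPre k P u) = ofV F.toPre k Q u :=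
  (ofV_eq hS hk ((val_ex hS hk e _).trans (val_ofV hu hk))).symm

omit hk in
theorem hs_ex (e : ∀ z v, P z v = v → Q z v = v) {u : Z.M → V} (hu : u ∈ Mod61.Hs F.toPre P) :
    u ∈ Mod61.Hs F.toPre Q := Hs_mul hS (Cb_const (ContinuousLinearMap.id ℝ V)) e hu

theorem ofV_zero : ofV F.toPre k P 0 = 0 := ofV_eq hS hk val_zero

end hs

variable {Wi : Type} {X : Mf 4} {A κ lam : Type} [Fintype A] [Fintype κ] [Fintype lam]
  [DecidableEq lam] {M : Mark X A κ} {W : World M} {N : ML M lam} {Λ : Lns W N}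
  {A' h : Type} [Fintype A'] [DecidableEq A'] [Fintype h] {r n : ℕ}
  {J : Job Wi Λ A' h r n} {c : M.Cl} {σ : Cel A'} {p : Prt A A' h} {U : Type} [Fintype U] {δ : ℝ}
  {b : Bp J c} {E : EC b p U δ} (H : (b.F p U δ).OK) (x : Pnt E.o r)
  {α : (W.Z c).M → Fm (Option κ) E.o.m.A} {φ : (W.Z c).M → E.o.m.V}
  (hα : α ∈ Mod61.Hs (b.F p U δ).F0.toPre E.o.P1) (hφ : φ ∈ Mod61.Hs (b.F p U δ).F0.toPre E.o.Pp)

theorem ln_zero : ln x hα hφ 0 = x := Pnt.ext' (by simp [ln]) (by simp [ln]) rfl rfl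

theorem ln_W (s : ℝ) (a : Option κ) (z : (W.Z c).M) : (ln x hα hφ s).cfg.W a z =
    E.o.W x.t x.α a z + s • opL (idx ((b.F p U δ).S x.t z) (.id ℝ _) (α z) a) := by
  simp only [ln, Pnt.cfg, Ref.W, Md.addC, Pi.add_apply, Pi.smul_apply, map_add, map_smul,
    PiLp.add_apply, PiLp.smul_apply, add_assoc]

theorem ln_Φ (s : ℝ) (z : (W.Z c).M) :
    (ln x hα hφ s).cfg.Φ z = (E.o.Φ0 + x.φ) z + s • φ z := (add_assoc _ _ _).symm

include H

theorem ln_pt (s : ℝ) : (ln x hα hφ s).pt 8 =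
    x.pt 8 + s • ((ofV _ 9 _ α, ofV _ 9 _ φ, 0) : E.o.C r 8) :=
  C_ext H (by norm_num)
    (by rw [Pnt.val_α _ (by norm_num), Prod.fst_add, val_add, x.val_α (by norm_num), Prod.smul_fst,
      val_smul, val_ofV hα (by norm_num)]; rfl)
    (by rw [Pnt.val_φ _ (by norm_num), Prod.snd_add, Prod.fst_add, val_add, x.val_φ (by norm_num),
      Prod.smul_snd, Prod.smul_fst, val_smul, val_ofV hφ (by norm_num)]; rfl)
    ((add_zero _).symm.trans (congrArg _ (smul_zero s).symm))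

variable {Y : Type} [NormedAddCommGroup Y] [NormedSpace ℝ Y]

/-- the derivative along a line -/
theorem der_ln {g : E.o.C r 8 → Y} (hg : ContDiffOn ℝ ∞ g (E.o.U r 8)) :
    HasDerivAt (fun s => g ((ln x hα hφ s).pt 8))
      (fderiv ℝ g (x.pt 8) (ofV _ 9 _ α, ofV _ 9 _ φ, 0)) 0 := by
  simp only [ln_pt H]
  exact der_line (isOpen_U H) hg x.mem_U _

theorem open_C : IsOpen (E.o.U r 8 ×ˢ univ : Set E.C) := (isOpen_U H).prod isOpen_univ

/-- the derivative along a line, with the fields of the cuts -/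
theorem der_lnC {f : E.C → Y} (hf : ContDiffOn ℝ ∞ f (E.o.U r 8 ×ˢ univ)) (ψ η : E.K) :
    HasDerivAt (fun s => f ((ln x hα hφ s).pt 8, ψ + s • η))
      (fderiv ℝ f (x.pt 8, ψ) ((ofV _ 9 _ α, ofV _ 9 _ φ, 0), η)) 0 := by
  simp only [ln_pt H]
  exact der_line (X := E.C) (x := (x.pt 8, ψ)) (open_C H) hf ⟨x.mem_U, trivial⟩
    ((ofV _ 9 _ α, ofV _ 9 _ φ, 0), η)

theorem der_ln0 {f : E.C → Y} (hf : ContDiffOn ℝ ∞ f (E.o.U r 8 ×ˢ univ)) (ψ : E.K) :
    HasDerivAt (fun s => f ((ln x hα hφ s).pt 8, ψ))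
      (fderiv ℝ f (x.pt 8, ψ) ((ofV _ 9 _ α, ofV _ 9 _ φ, 0), 0)) 0 := by
  simpa only [smul_zero, add_zero] using der_lnC H x hα hφ hf ψ 0

/-- the derivative in the fields of the cuts -/
theorem der_K {f : E.C → Y} (hf : ContDiffOn ℝ ∞ f (E.o.U r 8 ×ˢ univ)) (ψ η : E.K) :
    HasDerivAt (fun s : ℝ => f (x.pt 8, ψ + s • η)) (fderiv ℝ f (x.pt 8, ψ) (0, η)) 0 := by
  simpa only [Prod.smul_mk, smul_zero, Prod.mk_add_mk, add_zero] using
    der_line (X := E.C) (x := (x.pt 8, ψ)) (open_C H) hf ⟨x.mem_U, trivial⟩ (0, η)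

end Crest.Agent.X212.Nt66
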