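import Crest.Agent.X212.Nt66.Ln

/-!
# Row 212, RF-NT: the rows of a chart at related points
-/

set_option autoImplicit false
set_option linter.unusedSectionVars false
noncomputable section
open scoped Manifold ContDiff Topology InnerProductSpace
open MeasureTheory Set Function Filter

namespace Crest.Agent.X212.Nt66
open An M Nd18 Mod61 Nk89 Cht98 Rf65 Pte3 Eqv71

variable {Wi : Type} {X : Mf 4} {A κ lam : Type} [Fintype A] [Fintype κ] [Fintype lam]
  [DecidableEq lam] {M : Mark X A κ} {W : World M} {N : ML M lam} {Λ : Lns W N}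
  {A' h : Type} [Fintype A'] [DecidableEq A'] [Fintype h] {r n : ℕ}
  {J : Job Wi Λ A' h r n} {c : M.Cl} {σ : Cel A'} {p : Prt A A' h} {U : Type} [Fintype U] {δ : ℝ}
  {b : Bp J c} {E : EC b p U δ} (H : CS σ E) {O : Set (W.Z c).M} (hO : IsClopen O)
  {x x' : Pnt E.o r} (ht : x'.t = x.t) (h0 : ∀ z ∉ O, x.cfg.Φ z = 0) (h0' : ∀ z ∉ O, x'.cfg.Φ z = 0)
include H hO

/-- points that agree over `O` -/
theorem eqOn_p (eW : ∀ z ∈ O, ∀ a, x'.cfg.W a z = x.cfg.W a z)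
    (eΦ : ∀ z ∈ O, x'.cfg.Φ z = x.cfg.Φ z) (ez : x'.z = x.z) :
    Mod61.EqOn (J.B c) (J.G c (b.θ p U x.t)).F O x.cfg x'.cfg E.o.m.p 1 :=
  have k := ceq_refl H.F.B (H.F.G _ x.ht) (x.ad0 H.F) hO.2
  ⟨k.m, fun z hz a => by simp only [id, eW z hz]; exact k.W z hz a,
    fun z hz => (eΦ z hz).trans (k.Φ z hz), ez.trans k.z⟩

variable {u : (W.Z c).M → CL E.o.m.V E.o.m.V}
  (e : Mod61.EqOn (J.B c) (J.G c (b.θ p U x.t)).F O x.cfg x'.cfg u 1) (q : Wi →₀ ℝ)
include ht h0 h0' e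

/-- **the rows at related points** -/
theorem rows_eq :
    (∀ z ∈ O, u z = E.o.m.p z →
      (EC.tot b p U δ q x'.t).D x'.cfg z = (EC.tot b p U δ q x.t).D x.cfg z) ∧
    (∀ z ∈ O, cj (u z) = cj (E.o.m.p z) →
      (EC.tot b p U δ q x'.t).C x'.cfg z = (EC.tot b p U δ q x.t).C x.cfg z) ∧
    (EC.tot b p U δ q x'.t).S x'.cfg = (EC.tot b p U δ q x.t).S x.cfg ∧
    (EC.tot b p U δ q x'.t).R x'.cfg = (EC.tot b p U δ q x.t).R x.cfg ∧
    ∀ i : p.H, (J.cut c i).supp ⊆ O → u (J.cut c i).x0 = E.o.m.p (J.cut c i).x0 →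
      E.row q x' i = E.row q x i := by
  have o := H.ovx x
  have g := H.ok.kt H.mem o hO
  have t := H.ok.τ_nat H.mem o hO q
  have a := x.ad0 H.F
  have k : CR0 _ _ _ _ O O _ _ _ x.cfg x'.cfg u 1 := ⟨a, ht ▸ x'.ad0 H.F, h0, h0', e⟩
  have k0 : CR0 _ _ _ _ O O _ _ _ x.cfg x.cfg E.o.m.p 1 :=
    ⟨a, a, h0, h0, ceq_refl g.hB g.hG a hO.2⟩
  obtain ⟨a1, a2, a3, a4⟩ := tot_ev (b := b) (p := p) (U := U) (δ := δ) (t := x.t) (q := q) x.cfg
  obtain ⟨b1, b2, b3, b4⟩ := tot_ev (b := b) (p := p) (U := U) (δ := δ) (t := x.t) (q := q) x'.cfg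
  rw [ht]
  refine ⟨fun z hz f => (b1 z).trans ((t.eD g.toLG k hz).trans ?_),
    fun z hz f => (b2 z).trans ((t.eC g.toLG k hz).trans ?_),
    funext fun i => (b3 i).trans ((congrArg _ ((t.S k i).trans (by simp))).trans (a3 i).symm),
    b4.trans ((funext fun _ => by rw [ceq_norm_z e]).trans a4.symm), fun i hi f => ?_⟩
  · rw [f]; exact (t.eD g.toLG k0 hz).symm.trans (a1 z).symm
  · erw [f]; exact (t.eC g.toLG k0 hz).symm.trans (a2 z).symm
  · have R := Cnt93.rel_refl g.hB hi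
    have ok := H.cut_ok H.hb x.ht i
    have l := g.toLG.of_ceq k.adm k.adm' k.e
    have id : ∀ v, Cnt93.Rh (J.cut c i) (J.cut c i) (J.B c) (J.B c) u 1 v = v := fun v =>
      Subtype.ext ((Cnt93.coe_Rh l R 1 v).trans (by
        rw [f, show csE x'.cfg.m.J (1 : Circle) = 1 from csL_one _]; exact Cnt93.mem_p a.ok v))
    rw [EC.row, EC.row, ht]
    refine congrArg₂ (· - ·) (ContinuousLinearMap.ext fun v => ?_)
      (ContinuousLinearMap.ext fun v => ?_)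
    · exact (congrArg _ (id v).symm).trans ((Cnt93.T_nat l R 1 ok ok v).trans (id _))
    · exact (congrArg _ (id v).symm).trans ((H.ok.σc_nat H.mem o hO
        (Job.unc_of H.pok.pc (H.pok.nb i i.2)) hi q k 1 v).trans (id _))

end Crest.Agent.X212.Nt66
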